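import Mathlib

/-!
P011, general odd `n`, helper226: **the relative Dieudonne determinant near one** (439's (B3)).

`D` is a division ring, `O` a subring, `I` a two-sided ideal of `O` such that the elements of
`1 + I` have inverses in `1 + I`, `Ψ` is multiplicative on `1 + I` with `Ψ (1 + x y) = Ψ (1 + y x)`
for `x ∈ I`, `y ∈ O`.  `Psim Ψ m` is the sum of the values of `Ψ` at the pivots of a matrix.
-/

namespace Vale.Agent.P011.H226.Die

open Matrix

section defs
variable {D E : Type*} [DivisionRing D] [AddCommGroup E]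

/-- The hypotheses on `O`, `I`, `Ψ`. -/
structure Rel (O : Subring D) (I : AddSubgroup D) (Ψ : D → E) : Prop where
  le : ∀ x ∈ I, x ∈ O
  left : ∀ x ∈ O, ∀ y ∈ I, x * y ∈ I
  right : ∀ y ∈ I, ∀ x ∈ O, y * x ∈ I
  ne : ∀ x ∈ I, 1 + x ≠ 0
  inv : ∀ x ∈ I, (1 + x)⁻¹ - 1 ∈ I
  mul : ∀ x ∈ I, ∀ y ∈ I, Ψ ((1 + x) * (1 + y)) = Ψ (1 + x) + Ψ (1 + y)
  swap : ∀ x ∈ I, ∀ y ∈ O, Ψ (1 + x * y) = Ψ (1 + y * x)

/-- The entries of `X` are in `S`. -/
def En {m n : Type*} (S : AddSubgroup D) (X : Matrix m n D) : Prop := ∀ i j, X i j ∈ S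

variable {m : ℕ}

/-- the corner -/
def pa (G : Matrix (Fin (m + 1)) (Fin (m + 1)) D) : Matrix Unit Unit D := fun _ _ => G 0 0
/-- the first row -/
def pb (G : Matrix (Fin (m + 1)) (Fin (m + 1)) D) : Matrix Unit (Fin m) D := fun _ j => G 0 j.succ
/-- the first column -/
def pc (G : Matrix (Fin (m + 1)) (Fin (m + 1)) D) : Matrix (Fin m) Unit D := fun i _ => G i.succ 0
/-- the rest -/
def pd (G : Matrix (Fin (m + 1)) (Fin (m + 1)) D) : Matrix (Fin m) (Fin m) D :=
  fun i j => G i.succ j.succ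

/-- a scalar as a matrix -/
def sc (a : D) : Matrix Unit Unit D := fun _ _ => a

/-- The Schur complement of the corner. -/
noncomputable def sch (G : Matrix (Fin (m + 1)) (Fin (m + 1)) D) : Matrix (Fin m) (Fin m) D :=
  pd G - pc G * sc (G 0 0)⁻¹ * pb G

/-- The sum of the values of `Ψ` at the pivots. -/
noncomputable def Psim (Ψ : D → E) : (m : ℕ) → Matrix (Fin m) (Fin m) D → E
  | 0, _ => 0
  | m + 1, G => Ψ (G 0 0) + Psim Ψ m (sch G)

end defs

section sc
variable {D : Type*} [DivisionRing D]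

theorem sc_mul (a b : D) : sc (a * b) = sc a * sc b := by
  ext i j
  simp [sc, Matrix.mul_apply]

theorem sc_one : sc (1 : D) = 1 := by
  ext i j
  simp [sc]

theorem sc_add (a b : D) : sc (a + b) = sc a + sc b := rfl

theorem sc_sub (a b : D) : sc (a - b) = sc a - sc b := rfl

theorem sc_inv_mul {a : D} (ha : a ≠ 0) : sc a⁻¹ * sc a = 1 := by
  rw [← sc_mul, inv_mul_cancel₀ ha, sc_one]

theorem sc_mul_inv {a : D} (ha : a ≠ 0) : sc a * sc a⁻¹ = 1 := by
  rw [← sc_mul, mul_inv_cancel₀ ha, sc_one]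

omit [DivisionRing D] in
theorem eq_sc (A : Matrix Unit Unit D) : A = sc (A () ()) := by
  ext i j
  rfl

variable {m : ℕ}

omit [DivisionRing D] in
theorem pa_eq (G : Matrix (Fin (m + 1)) (Fin (m + 1)) D) : pa G = sc (G 0 0) := rfl

theorem pa_mul (G H : Matrix (Fin (m + 1)) (Fin (m + 1)) D) :
    pa (G * H) = pa G * pa H + pb G * pc H := by
  ext i j
  simp [pa, pb, pc, Matrix.mul_apply, Fin.sum_univ_succ]

theorem pb_mul (G H : Matrix (Fin (m + 1)) (Fin (m + 1)) D) :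
    pb (G * H) = pa G * pb H + pb G * pd H := by
  ext i j
  simp [pa, pb, pd, Matrix.mul_apply, Fin.sum_univ_succ]

theorem pc_mul (G H : Matrix (Fin (m + 1)) (Fin (m + 1)) D) :
    pc (G * H) = pc G * pa H + pd G * pc H := by
  ext i j
  simp [pa, pc, pd, Matrix.mul_apply, Fin.sum_univ_succ]

theorem pd_mul (G H : Matrix (Fin (m + 1)) (Fin (m + 1)) D) :
    pd (G * H) = pc G * pb H + pd G * pd H := by
  ext i j
  simp [pb, pc, pd, Matrix.mul_apply, Fin.sum_univ_succ]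

theorem pa_one : pa (1 : Matrix (Fin (m + 1)) (Fin (m + 1)) D) = 1 := by
  ext i j
  simp [pa]

theorem pb_one : pb (1 : Matrix (Fin (m + 1)) (Fin (m + 1)) D) = 0 := by
  ext i j
  simp [pb, (Fin.succ_ne_zero j).symm]

theorem pc_one : pc (1 : Matrix (Fin (m + 1)) (Fin (m + 1)) D) = 0 := by
  ext i j
  simp [pc, Fin.succ_ne_zero i]

theorem pd_one : pd (1 : Matrix (Fin (m + 1)) (Fin (m + 1)) D) = 1 := by
  ext i j
  simp [pd, Matrix.one_apply]

theorem pa_add (G H : Matrix (Fin (m + 1)) (Fin (m + 1)) D) : pa (G + H) = pa G + pa H := rfl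
theorem pb_add (G H : Matrix (Fin (m + 1)) (Fin (m + 1)) D) : pb (G + H) = pb G + pb H := rfl
theorem pc_add (G H : Matrix (Fin (m + 1)) (Fin (m + 1)) D) : pc (G + H) = pc G + pc H := rfl
theorem pd_add (G H : Matrix (Fin (m + 1)) (Fin (m + 1)) D) : pd (G + H) = pd G + pd H := rfl

/-- **The Schur complement of a product.** -/
theorem sch_mul {G H : Matrix (Fin (m + 1)) (Fin (m + 1)) D} (hG : G 0 0 ≠ 0) (hH : H 0 0 ≠ 0)
    {u : Matrix Unit (Fin m) D} (hu : u = sc (G 0 0)⁻¹ * pb G) {p : D}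
    (hp : sc p = pa H + u * pc H) (hp0 : p ≠ 0) :
    (G * H) 0 0 = G 0 0 * p ∧
      sch (G * H) = sch G * (1 - pc H * sc p⁻¹ * u) * sch H := by
  have hb : pb G = sc (G 0 0) * u := by
    rw [hu, ← Matrix.mul_assoc, sc_mul_inv hG, Matrix.one_mul]
  have h1 : (G * H) 0 0 = G 0 0 * p := by
    have h2 : sc ((G * H) 0 0) = sc (G 0 0 * p) := by
      rw [← pa_eq, pa_mul, sc_mul, hp, pa_eq G, hb, Matrix.mul_add, Matrix.mul_assoc]
    exact congrFun (congrFun h2 ()) ()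
  refine ⟨h1, ?_⟩
  -- write the blocks of `G`, `H` by the Schur complements
  have hdG : pd G = sch G + pc G * u := by
    rw [sch, hu, ← Matrix.mul_assoc, sub_add_cancel]
  set β : Matrix Unit (Fin m) D := sc (H 0 0)⁻¹ * pb H with hβ
  have hbH : pb H = pa H * β := by
    rw [hβ, ← Matrix.mul_assoc, pa_eq, sc_mul_inv hH, Matrix.one_mul]
  have hdH : pd H = sch H + pc H * β := by
    rw [sch, hβ, ← Matrix.mul_assoc, sub_add_cancel]
  have hpp : sc p * sc p⁻¹ = 1 := sc_mul_inv hp0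
  have hpp' : sc p⁻¹ * sc p = 1 := sc_inv_mul hp0
  have hr : pb (G * H) = sc (G 0 0) * (sc p * β + u * sch H) := by
    rw [pb_mul, pa_eq G, hb, hbH, hdH, hp]
    simp only [Matrix.mul_add, Matrix.add_mul, Matrix.mul_assoc]
    abel
  have hc : pc (G * H) = pc G * sc p + sch G * pc H := by
    rw [pc_mul, hdG, hp]
    simp only [Matrix.mul_add, Matrix.add_mul, Matrix.mul_assoc]
    abel
  have hd : pd (G * H) = pc G * (sc p * β + u * sch H) + sch G * (sch H + pc H * β) := by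
    rw [pd_mul, hdG, hbH, hdH, hp]
    simp only [Matrix.mul_add, Matrix.add_mul, Matrix.mul_assoc]
    abel
  have hinv : sc ((G * H) 0 0)⁻¹ = sc p⁻¹ * sc (G 0 0)⁻¹ := by
    rw [h1, _root_.mul_inv_rev, sc_mul]
  have hgg : sc (G 0 0)⁻¹ * sc (G 0 0) = 1 := sc_inv_mul hG
  have key : sc ((G * H) 0 0)⁻¹ * pb (G * H) = β + sc p⁻¹ * (u * sch H) := by
    rw [hinv, hr, Matrix.mul_assoc, ← Matrix.mul_assoc (sc (G 0 0)⁻¹), hgg, Matrix.one_mul,
      Matrix.mul_add, ← Matrix.mul_assoc, hpp', Matrix.one_mul]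
  rw [sch, Matrix.mul_assoc, key, hc, hd]
  have e1 : pc G * sc p * (sc p⁻¹ * (u * sch H)) = pc G * (u * sch H) := by
    rw [← Matrix.mul_assoc, Matrix.mul_assoc (pc G), hpp, Matrix.mul_one]
  simp only [Matrix.mul_add, Matrix.add_mul, Matrix.mul_sub, Matrix.sub_mul, Matrix.mul_one, e1]
  simp only [Matrix.mul_assoc]
  abel

end sc

section rel
variable {D E : Type*} [DivisionRing D] [AddCommGroup E] {O : Subring D} {I : AddSubgroup D}
  {Ψ : D → E}

theorem Rel.mem_of_sub (h : Rel O I Ψ) {g : D} (hg : g - 1 ∈ I) : g ∈ O := by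
  have := O.add_mem (h.le _ hg) O.one_mem
  rwa [sub_add_cancel] at this

theorem Rel.ne_zero (h : Rel O I Ψ) {g : D} (hg : g - 1 ∈ I) : g ≠ 0 := by
  have := h.ne _ hg
  rwa [add_sub_cancel] at this

theorem Rel.inv_mem (h : Rel O I Ψ) {g : D} (hg : g - 1 ∈ I) : g⁻¹ - 1 ∈ I := by
  have := h.inv _ hg
  rwa [add_sub_cancel] at this

theorem Rel.mul_mem (h : Rel O I Ψ) {g g' : D} (hg : g - 1 ∈ I) (hg' : g' - 1 ∈ I) :
    g * g' - 1 ∈ I := by
  have h1 : g * g' - 1 = (g - 1) * g' + (g' - 1) := by noncomm_ring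
  rw [h1]
  exact I.add_mem (h.right _ hg _ (h.mem_of_sub hg')) hg'

theorem Rel.map_mul (h : Rel O I Ψ) {g g' : D} (hg : g - 1 ∈ I) (hg' : g' - 1 ∈ I) :
    Ψ (g * g') = Ψ g + Ψ g' := by
  have := h.mul _ hg _ hg'
  rwa [add_sub_cancel, add_sub_cancel] at this

theorem Rel.map_one (h : Rel O I Ψ) : Ψ 1 = 0 := by
  have h0 : (1 : D) - 1 ∈ I := by rw [sub_self]; exact I.zero_mem
  have := h.map_mul h0 h0
  rw [mul_one] at this
  exact left_eq_add.1 this

theorem Rel.swap' (h : Rel O I Ψ) {x y : D} (hxy : (x ∈ I ∧ y ∈ O) ∨ (x ∈ O ∧ y ∈ I)) :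
    Ψ (1 + x * y) = Ψ (1 + y * x) := by
  rcases hxy with ⟨hx, hy⟩ | ⟨hx, hy⟩
  · exact h.swap x hx y hy
  · exact (h.swap y hy x hx).symm

theorem Rel.mul_mem' (h : Rel O I Ψ) {x y : D} (hxy : (x ∈ I ∧ y ∈ O) ∨ (x ∈ O ∧ y ∈ I)) :
    x * y ∈ I := by
  rcases hxy with ⟨hx, hy⟩ | ⟨hx, hy⟩
  · exact h.right x hx y hy
  · exact h.left x hx y hy

/-- A classical identity. -/
theorem one_sub_inv {x y : D} (h : 1 + x * y ≠ 0) :
    1 - y * (1 + x * y)⁻¹ * x = (1 + y * x)⁻¹ := by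
  apply eq_inv_of_mul_eq_one_right
  have h1 : y * x * (y * (1 + x * y)⁻¹ * x) = y * (x * y * (1 + x * y)⁻¹) * x := by
    noncomm_ring
  have h2 : x * y * (1 + x * y)⁻¹ = 1 - (1 + x * y)⁻¹ := by
    rw [eq_sub_iff_add_eq]
    have h3 : x * y * (1 + x * y)⁻¹ + (1 + x * y)⁻¹ = (1 + x * y) * (1 + x * y)⁻¹ := by
      rw [add_mul, one_mul, add_comm]
    rw [h3, mul_inv_cancel₀ h]
  rw [mul_sub, mul_one, add_mul, one_mul, h1, h2]
  noncomm_ring

section En
variable {l m n : Type*}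

theorem En.zero : En I (0 : Matrix m n D) := fun _ _ => I.zero_mem

theorem En.add {X Y : Matrix m n D} (hX : En I X) (hY : En I Y) : En I (X + Y) :=
  fun i j => I.add_mem (hX i j) (hY i j)

theorem En.sub {X Y : Matrix m n D} (hX : En I X) (hY : En I Y) : En I (X - Y) :=
  fun i j => I.sub_mem (hX i j) (hY i j)

theorem En.neg {X : Matrix m n D} (hX : En I X) : En I (-X) := fun i j => I.neg_mem (hX i j)

theorem En.mul_of [Fintype m] {J K : AddSubgroup D} {X : Matrix l m D} {Y : Matrix m n D}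
    (hX : En J X) (hY : En K Y) (h : ∀ x ∈ J, ∀ y ∈ K, x * y ∈ I) : En I (X * Y) := by
  intro i j
  rw [Matrix.mul_apply]
  exact I.sum_mem fun k _ => h _ (hX i k) _ (hY k j)

theorem Rel.enIO (h : Rel O I Ψ) [Fintype m] {X : Matrix l m D} {Y : Matrix m n D}
    (hX : En I X) (hY : En O.toAddSubgroup Y) : En I (X * Y) :=
  hX.mul_of hY fun x hx y hy => h.right x hx y hy

theorem Rel.enOI (h : Rel O I Ψ) [Fintype m] {X : Matrix l m D} {Y : Matrix m n D}
    (hX : En O.toAddSubgroup X) (hY : En I Y) : En I (X * Y) :=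
  hX.mul_of hY fun x hx y hy => h.left x hx y hy

theorem enOO [Fintype m] {X : Matrix l m D} {Y : Matrix m n D}
    (hX : En O.toAddSubgroup X) (hY : En O.toAddSubgroup Y) : En O.toAddSubgroup (X * Y) :=
  hX.mul_of hY fun _ hx _ hy => O.mul_mem hx hy

theorem Rel.enO (h : Rel O I Ψ) {X : Matrix m n D} (hX : En I X) : En O.toAddSubgroup X :=
  fun i j => h.le _ (hX i j)

theorem Rel.enII (h : Rel O I Ψ) [Fintype m] {X : Matrix l m D} {Y : Matrix m n D}
    (hX : En I X) (hY : En I Y) : En I (X * Y) := h.enIO hX (h.enO hY)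

theorem en_sc {S : AddSubgroup D} {a : D} (ha : a ∈ S) : En S (sc a) := fun _ _ => ha

theorem enO_one [DecidableEq m] : En O.toAddSubgroup (1 : Matrix m m D) := by
  intro i j
  rw [Matrix.one_apply]
  split_ifs
  · exact O.one_mem
  · exact O.zero_mem

theorem Rel.enO_of_sub (h : Rel O I Ψ) [DecidableEq m] {G : Matrix m m D} (hG : En I (G - 1)) :
    En O.toAddSubgroup G := by
  have h1 : G = (G - 1) + 1 := by rw [sub_add_cancel]
  rw [h1]
  exact (h.enO hG).add enO_one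

theorem Rel.en_mul (h : Rel O I Ψ) [Fintype m] [DecidableEq m] {G H : Matrix m m D}
    (hG : En I (G - 1)) (hH : En I (H - 1)) : En I (G * H - 1) := by
  have h1 : G * H - 1 = (G - 1) * H + (H - 1) := by
    rw [sub_mul, one_mul]
    abel
  rw [h1]
  exact (h.enIO hG (h.enO_of_sub hH)).add hH

end En

variable {m : ℕ}

theorem en_pd {G : Matrix (Fin (m + 1)) (Fin (m + 1)) D} (hG : En I (G - 1)) :
    En I (pd G - 1) := by
  intro i j
  have := hG i.succ j.succ
  simp only [Matrix.sub_apply, Matrix.one_apply, Fin.succ_inj] at this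
  simpa only [Matrix.sub_apply, Matrix.one_apply, pd] using this

theorem en_pb {G : Matrix (Fin (m + 1)) (Fin (m + 1)) D} (hG : En I (G - 1)) :
    En I (pb G) := by
  intro i j
  have := hG 0 j.succ
  rwa [Matrix.sub_apply, Matrix.one_apply_ne (Fin.succ_ne_zero j).symm, sub_zero] at this

theorem en_pc {G : Matrix (Fin (m + 1)) (Fin (m + 1)) D} (hG : En I (G - 1)) :
    En I (pc G) := by
  intro i j
  have := hG i.succ 0
  rwa [Matrix.sub_apply, Matrix.one_apply_ne (Fin.succ_ne_zero i), sub_zero] at this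

theorem en_pa {G : Matrix (Fin (m + 1)) (Fin (m + 1)) D} (hG : En I (G - 1)) :
    G 0 0 - 1 ∈ I := by
  have := hG 0 0
  rwa [Matrix.sub_apply, Matrix.one_apply_eq] at this

theorem Rel.en_sch (h : Rel O I Ψ) {G : Matrix (Fin (m + 1)) (Fin (m + 1)) D}
    (hG : En I (G - 1)) : En I (sch G - 1) := by
  have h1 : sch G - 1 = (pd G - 1) - pc G * sc (G 0 0)⁻¹ * pb G := by
    rw [sch]
    abel
  rw [h1]
  exact (en_pd hG).sub (h.enIO (h.enIO (en_pc hG)
    (en_sc (h.mem_of_sub (h.inv_mem (en_pa hG))))) (h.enO (en_pb hG)))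

/-- **Rank one.** -/
theorem Rel.rank_one (h : Rel O I Ψ) : ∀ (m : ℕ) (c : Matrix (Fin m) Unit D)
    (u : Matrix Unit (Fin m) D), (En I c ∧ En O.toAddSubgroup u) ∨ (En O.toAddSubgroup c ∧ En I u) →
    Psim Ψ m (1 + c * u) = Ψ (1 + (u * c) () ()) := by
  intro m
  induction m with
  | zero =>
    intro c u _
    rw [Psim, Matrix.mul_apply, Fin.sum_univ_zero, add_zero, h.map_one]
  | succ m ih =>
    intro c u hcu
    obtain ⟨c0, hc0⟩ : ∃ c0 : D, c0 = c 0 () := ⟨_, rfl⟩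
    obtain ⟨u0, hu0⟩ : ∃ u0 : D, u0 = u () 0 := ⟨_, rfl⟩
    obtain ⟨c1, hc1⟩ : ∃ c1 : Matrix (Fin m) Unit D, ∀ i j, c1 i j = c i.succ () :=
      ⟨fun i _ => c i.succ (), fun _ _ => rfl⟩
    obtain ⟨u1, hu1⟩ : ∃ u1 : Matrix Unit (Fin m) D, ∀ i j, u1 i j = u () j.succ :=
      ⟨fun _ j => u () j.succ, fun _ _ => rfl⟩
    have h00 : (1 + c * u : Matrix (Fin (m + 1)) (Fin (m + 1)) D) 0 0 = 1 + c0 * u0 := by
      simp [Matrix.mul_apply, hc0, hu0]
    have hpb : pb (1 + c * u) = sc c0 * u1 := by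
      rw [pb_add, pb_one, zero_add]
      ext i j
      simp [pb, sc, Matrix.mul_apply, hc0, hu1]
    have hpc : pc (1 + c * u) = c1 * sc u0 := by
      rw [pc_add, pc_one, zero_add]
      ext i j
      simp [pc, sc, Matrix.mul_apply, hc1, hu0]
    have hpd : pd (1 + c * u) = 1 + c1 * u1 := by
      rw [pd_add, pd_one]
      congr 1
      ext i j
      simp [pd, Matrix.mul_apply, hc1, hu1]
    have huc : (u * c) () () = u0 * c0 + (u1 * c1) () () := by
      simp [Matrix.mul_apply, Fin.sum_univ_succ, hu0, hc0, hu1, hc1]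
    have hcu0 : (c0 ∈ I ∧ u0 ∈ O) ∨ (c0 ∈ O ∧ u0 ∈ I) := by
      rw [hc0, hu0]
      rcases hcu with ⟨h1, h2⟩ | ⟨h1, h2⟩
      · exact Or.inl ⟨h1 0 (), h2 () 0⟩
      · exact Or.inr ⟨h1 0 (), h2 () 0⟩
    have hm1 : c0 * u0 ∈ I := h.mul_mem' hcu0
    have hm2 : u0 * c0 ∈ I := by
      rcases hcu0 with ⟨h1, h2⟩ | ⟨h1, h2⟩
      · exact h.left _ h2 _ h1
      · exact h.right _ h2 _ h1
    have hn1 := h.ne _ hm1
    have hn2 := h.ne _ hm2
    have hi2 : (1 + u0 * c0)⁻¹ - 1 ∈ I := h.inv _ hm2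
    have hs : sch (1 + c * u) = 1 + c1 * (sc (1 + u0 * c0)⁻¹ * u1) := by
      rw [sch, hpc, hpb, hpd, h00, ← one_sub_inv hn1, sc_sub, sc_one, sc_mul, sc_mul,
        Matrix.sub_mul, Matrix.one_mul, Matrix.mul_sub]
      simp only [Matrix.mul_assoc]
      abel
    have hcu1 : (En I c1 ∧ En O.toAddSubgroup (sc (1 + u0 * c0)⁻¹ * u1)) ∨
        (En O.toAddSubgroup c1 ∧ En I (sc (1 + u0 * c0)⁻¹ * u1)) := by
      have h3 : En O.toAddSubgroup (sc (1 + u0 * c0)⁻¹) := en_sc (h.mem_of_sub hi2)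
      rcases hcu with ⟨h1, h2⟩ | ⟨h1, h2⟩
      · exact Or.inl ⟨fun i j => by rw [hc1]; exact h1 i.succ (),
          enOO h3 fun i j => by rw [hu1]; exact h2 () j.succ⟩
      · exact Or.inr ⟨fun i j => by rw [hc1]; exact h1 i.succ (),
          h.enOI h3 fun i j => by rw [hu1]; exact h2 () j.succ⟩
    have hlast : (sc (1 + u0 * c0)⁻¹ * u1 * c1) () () = (1 + u0 * c0)⁻¹ * (u1 * c1) () () := by
      rw [Matrix.mul_assoc]
      simp [sc, Matrix.mul_apply]
    have hI : (u1 * c1) () () ∈ I := by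
      rcases hcu with ⟨h1, h2⟩ | ⟨h1, h2⟩
      · exact h.enOI (X := u1) (Y := c1) (fun i j => by rw [hu1]; exact h2 () j.succ)
          (fun i j => by rw [hc1]; exact h1 i.succ ()) () ()
      · exact h.enIO (X := u1) (Y := c1) (fun i j => by rw [hu1]; exact h2 () j.succ)
          (fun i j => by rw [hc1]; exact h1 i.succ ()) () ()
    rw [Psim, h00, hs, ih c1 _ hcu1, hlast, huc, h.swap' hcu0]
    have hg1 : (1 + u0 * c0) - 1 ∈ I := by rwa [add_sub_cancel_left]
    have hg2 : (1 + (1 + u0 * c0)⁻¹ * (u1 * c1) () ()) - 1 ∈ I := by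
      rw [add_sub_cancel_left]
      exact h.left _ (h.mem_of_sub hi2) _ hI
    rw [← h.map_mul hg1 hg2, mul_add, mul_one, mul_inv_cancel_left₀ hn2, add_assoc]

/-- **The pivot sum is additive.** -/
theorem Rel.Psim_mul (h : Rel O I Ψ) : ∀ (m : ℕ) (G H : Matrix (Fin m) (Fin m) D),
    En I (G - 1) → En I (H - 1) → Psim Ψ m (G * H) = Psim Ψ m G + Psim Ψ m H := by
  intro m
  induction m with
  | zero =>
    intro G H _ _
    simp [Psim]
  | succ m ih =>
    intro G H hG hH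
    have ha := en_pa hG
    have ha' := en_pa hH
    have hne := h.ne_zero ha
    have hne' := h.ne_zero ha'
    set u : Matrix Unit (Fin m) D := sc (G 0 0)⁻¹ * pb G with hu
    have huI : En I u := h.enOI (en_sc (h.mem_of_sub (h.inv_mem ha))) (en_pb hG)
    set x : D := (u * pc H) () () with hx
    have hxI : x ∈ I := h.enII huI (en_pc hH) () ()
    set p : D := H 0 0 + x with hp
    have hpI : p - 1 ∈ I := by
      have h1 : p - 1 = (H 0 0 - 1) + x := by rw [hp]; abel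
      rw [h1]
      exact I.add_mem ha' hxI
    have hp0 := h.ne_zero hpI
    have hpi := h.inv_mem hpI
    have hpsc : sc p = pa H + u * pc H := by
      rw [hp, sc_add, hx, ← eq_sc, pa_eq]
    obtain ⟨h1, h2⟩ := sch_mul hne hne' hu hpsc hp0
    have hR : (1 : Matrix (Fin m) (Fin m) D) - pc H * sc p⁻¹ * u = 1 + (-(pc H * sc p⁻¹)) * u := by
      rw [Matrix.neg_mul, sub_eq_add_neg]
    have hcI : En I (-(pc H * sc p⁻¹)) := (h.enIO (en_pc hH) (en_sc (h.mem_of_sub hpi))).neg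
    have hR1 : Psim Ψ m (1 + (-(pc H * sc p⁻¹)) * u) = Ψ (H 0 0) - Ψ p := by
      rw [h.rank_one m _ _ (Or.inl ⟨hcI, h.enO huI⟩)]
      have h3 : (u * (-(pc H * sc p⁻¹))) () () = -(x * p⁻¹) := by
        rw [Matrix.mul_neg, ← Matrix.mul_assoc, Matrix.neg_apply, hx]
        simp [sc, Matrix.mul_apply]
      have h4 : 1 + -(x * p⁻¹) = H 0 0 * p⁻¹ := by
        have h5 : H 0 0 = p - x := by rw [hp]; abel
        rw [h5, sub_mul, mul_inv_cancel₀ hp0, sub_eq_add_neg]
      rw [h3, h4, eq_sub_iff_add_eq, ← h.map_mul (h.mul_mem ha' hpi) hpI,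
        inv_mul_cancel_right₀ hp0]
    have hRI : En I ((1 + (-(pc H * sc p⁻¹)) * u) - 1) := by
      rw [add_sub_cancel_left]
      exact h.enII hcI huI
    rw [Psim, Psim, Psim, h1, h2, hR, ih _ _ (h.en_mul (h.en_sch hG) hRI) (h.en_sch hH),
      ih _ _ (h.en_sch hG) hRI, hR1, h.map_mul ha hpI]
    abel

theorem Rel.Psim_one (h : Rel O I Ψ) (m : ℕ) : Psim Ψ m (1 : Matrix (Fin m) (Fin m) D) = 0 := by
  have h0 : En I ((1 : Matrix (Fin m) (Fin m) D) - 1) := by
    rw [sub_self]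
    exact En.zero
  have := h.Psim_mul m 1 1 h0 h0
  rw [mul_one] at this
  exact left_eq_add.1 this

/-- **Exchange.** -/
theorem Rel.Psim_swap (h : Rel O I Ψ) {m : ℕ} : ∀ (n : ℕ) (X : Matrix (Fin m) (Fin n) D)
    (Y : Matrix (Fin n) (Fin m) D), En I X → En O.toAddSubgroup Y →
    Psim Ψ m (1 + X * Y) = Psim Ψ n (1 + Y * X) := by
  intro n
  induction n with
  | zero =>
    intro X Y _ _
    have h1 : X * Y = 0 := by
      ext i j
      simp [Matrix.mul_apply]
    rw [h1, add_zero, h.Psim_one, Psim]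
  | succ n ih =>
    intro X Y hX hY
    obtain ⟨x, hx⟩ : ∃ x : Matrix (Fin m) Unit D, ∀ i j, x i j = X i 0 :=
      ⟨fun i _ => X i 0, fun _ _ => rfl⟩
    obtain ⟨X1, hX1⟩ : ∃ X1 : Matrix (Fin m) (Fin n) D, ∀ i j, X1 i j = X i j.succ :=
      ⟨fun i j => X i j.succ, fun _ _ => rfl⟩
    obtain ⟨y, hy⟩ : ∃ y : Matrix Unit (Fin m) D, ∀ i j, y i j = Y 0 j :=
      ⟨fun _ j => Y 0 j, fun _ _ => rfl⟩
    obtain ⟨Y1, hY1⟩ : ∃ Y1 : Matrix (Fin n) (Fin m) D, ∀ i j, Y1 i j = Y i.succ j :=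
      ⟨fun i j => Y i.succ j, fun _ _ => rfl⟩
    have hxI : En I x := fun i j => by rw [hx]; exact hX i 0
    have hyO : En O.toAddSubgroup y := fun i j => by rw [hy]; exact hY 0 j
    have hX1I : En I X1 := fun i j => by rw [hX1]; exact hX i j.succ
    have hY1O : En O.toAddSubgroup Y1 := fun i j => by rw [hY1]; exact hY i.succ j
    have hXY : X * Y = x * y + X1 * Y1 := by
      ext i j
      simp [Matrix.mul_apply, Fin.sum_univ_succ, hx, hX1, hy, hY1]
    set a : D := 1 + (y * x) () () with ha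
    have hyx : (y * x) () () ∈ I := h.enOI hyO hxI () ()
    have haI : a - 1 ∈ I := by rwa [ha, add_sub_cancel_left]
    have ha0 := h.ne_zero haI
    have hai := h.inv_mem haI
    have hsca : sc a = 1 + y * x := by rw [ha, sc_add, sc_one, ← eq_sc]
    have h00 : (1 + Y * X : Matrix (Fin (n + 1)) (Fin (n + 1)) D) 0 0 = a := by
      simp [Matrix.mul_apply, ha, hy, hx]
    have hpb : pb (1 + Y * X) = y * X1 := by
      rw [pb_add, pb_one, zero_add]
      ext i j
      simp [pb, Matrix.mul_apply, hy, hX1]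
    have hpc : pc (1 + Y * X) = Y1 * x := by
      rw [pc_add, pc_one, zero_add]
      ext i j
      simp [pc, Matrix.mul_apply, hY1, hx]
    have hpd : pd (1 + Y * X) = 1 + Y1 * X1 := by
      rw [pd_add, pd_one]
      congr 1
      ext i j
      simp [pd, Matrix.mul_apply, hY1, hX1]
    set X' : Matrix (Fin m) (Fin n) D := X1 - x * sc a⁻¹ * (y * X1) with hX'
    have hX'I : En I X' := hX1I.sub (h.enIO (h.enIO hxI (en_sc (h.mem_of_sub hai)))
      (h.enO (h.enOI hyO hX1I)))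
    have hs : sch (1 + Y * X) = 1 + Y1 * X' := by
      rw [sch, hpc, hpb, hpd, h00, hX', Matrix.mul_sub]
      simp only [Matrix.mul_assoc]
      abel
    have hprod : (1 + x * y) * (1 + X' * Y1) = 1 + X * Y := by
      have h5 : (1 + x * y) * X' = X1 := by
        have h6 : x * y * (x * sc a⁻¹ * (y * X1)) = x * ((y * x) * sc a⁻¹) * (y * X1) := by
          simp only [Matrix.mul_assoc]
        have h7 : (y * x) * sc a⁻¹ = 1 - sc a⁻¹ := by
          have h8 : y * x = sc a - 1 := by rw [hsca]; abel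
          rw [h8, Matrix.sub_mul, Matrix.one_mul, sc_mul_inv ha0]
        rw [hX', Matrix.mul_sub, Matrix.add_mul, Matrix.one_mul, Matrix.add_mul, Matrix.one_mul,
          h6, h7, Matrix.mul_sub, Matrix.mul_one, Matrix.sub_mul]
        simp only [Matrix.mul_assoc]
        abel
      rw [Matrix.mul_add, Matrix.mul_one, ← Matrix.mul_assoc, h5, hXY]
      abel
    have hg1 : En I ((1 + x * y) - 1) := by
      rw [add_sub_cancel_left]
      exact h.enIO hxI hyO
    have hg2 : En I ((1 + X' * Y1) - 1) := by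
      rw [add_sub_cancel_left]
      exact h.enIO hX'I hY1O
    rw [← hprod, h.Psim_mul m _ _ hg1 hg2, h.rank_one m x y (Or.inl ⟨hxI, hyO⟩), ih X' Y1 hX'I hY1O,
      Psim, h00, hs]

/-- **Invariance under `GL_m(O)`.** -/
theorem Rel.Psim_conjO (h : Rel O I Ψ) {m : ℕ} {P Pi G : Matrix (Fin m) (Fin m) D}
    (h1 : P * Pi = 1) (h2 : Pi * P = 1) (hP : En O.toAddSubgroup P)
    (hPi : En O.toAddSubgroup Pi) (hG : En I (G - 1)) :
    Psim Ψ m (P * G * Pi) = Psim Ψ m G := by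
  have h3 : P * G * Pi = 1 + (P * (G - 1)) * Pi := by
    rw [Matrix.mul_sub, Matrix.sub_mul, Matrix.mul_one, h1]
    abel
  rw [h3, h.Psim_swap m _ _ (h.enOI hP hG) hPi, ← Matrix.mul_assoc, h2, Matrix.one_mul,
    add_sub_cancel]

end rel

end Vale.Agent.P011.H226.Die
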