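import Vale.Agent.P011.H226.Die

/-!
P011, general odd `n`, helper226: **the relative Dieudonne determinant near one**, second part:
triangular matrices, conjugation by diagonal matrices, matrices over a commutative subfield.
-/

namespace Vale.Agent.P011.H226.Die

open Matrix

section tri
variable {D E : Type*} [DivisionRing D] [AddCommGroup E] {Ψ : D → E} {m : ℕ}

theorem sch_apply (G : Matrix (Fin (m + 1)) (Fin (m + 1)) D) (i j : Fin m) :
    sch G i j = G i.succ j.succ - G i.succ 0 * (G 0 0)⁻¹ * G 0 j.succ := by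
  simp [sch, pd, pc, pb, sc, Matrix.mul_apply]

/-- Upper triangular matrices. -/
theorem Psim_upper : ∀ (m : ℕ) (G : Matrix (Fin m) (Fin m) D), (∀ i j, j < i → G i j = 0) →
    Psim Ψ m G = ∑ i, Ψ (G i i) := by
  intro m
  induction m with
  | zero =>
    intro G _
    simp [Psim]
  | succ m ih =>
    intro G hG
    have h1 : sch G = pd G := by
      ext i j
      rw [sch_apply, hG i.succ 0 (Fin.succ_pos i), zero_mul, zero_mul, sub_zero]
      rfl
    rw [Psim, Fin.sum_univ_succ, h1, ih (pd G) fun i j hij => hG _ _ (Fin.succ_lt_succ_iff.2 hij)]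
    rfl

/-- Lower triangular matrices. -/
theorem Psim_lower : ∀ (m : ℕ) (G : Matrix (Fin m) (Fin m) D), (∀ i j, i < j → G i j = 0) →
    Psim Ψ m G = ∑ i, Ψ (G i i) := by
  intro m
  induction m with
  | zero =>
    intro G _
    simp [Psim]
  | succ m ih =>
    intro G hG
    have h1 : sch G = pd G := by
      ext i j
      rw [sch_apply, hG 0 j.succ (Fin.succ_pos j), mul_zero, sub_zero]
      rfl
    rw [Psim, Fin.sum_univ_succ, h1, ih (pd G) fun i j hij => hG _ _ (Fin.succ_lt_succ_iff.2 hij)]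
    rfl

theorem Psim_diagonal (d : Fin m → D) : Psim Ψ m (diagonal d) = ∑ i, Ψ (d i) := by
  rw [Psim_upper m _ fun i j hij => diagonal_apply_ne _ hij.ne']
  simp

theorem diag_conj_apply (δ δ' : Fin m → D) (X : Matrix (Fin m) (Fin m) D) (i j : Fin m) :
    (diagonal δ * X * diagonal δ') i j = δ i * X i j * δ' j := by
  rw [Matrix.mul_diagonal, Matrix.diagonal_mul]

theorem sch_diag {δ δ' : Fin (m + 1) → D} (h : ∀ i, δ i * δ' i = 1)
    (X : Matrix (Fin (m + 1)) (Fin (m + 1)) D) :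
    sch (diagonal δ * X * diagonal δ') =
      diagonal (fun i : Fin m => δ i.succ) * sch X * diagonal (fun i : Fin m => δ' i.succ) := by
  have h0 : δ' 0 * δ 0 = 1 := by
    have h1 := eq_inv_of_mul_eq_one_right (h 0)
    have h2 : δ 0 ≠ 0 := left_ne_zero_of_mul_eq_one (h 0)
    rw [h1, inv_mul_cancel₀ h2]
  have hd : (δ 0 * X 0 0 * δ' 0)⁻¹ = δ 0 * (X 0 0)⁻¹ * δ' 0 := by
    have h1 : δ' 0 = (δ 0)⁻¹ := eq_inv_of_mul_eq_one_right (h 0)
    rw [h1, _root_.mul_inv_rev, _root_.mul_inv_rev, inv_inv, mul_assoc]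
  ext i j
  rw [sch_apply, diag_conj_apply, diag_conj_apply, diag_conj_apply, diag_conj_apply,
    diag_conj_apply, sch_apply, hd]
  have e1 : δ i.succ * X i.succ 0 * δ' 0 * (δ 0 * (X 0 0)⁻¹ * δ' 0) * (δ 0 * X 0 j.succ * δ' j.succ)
      = δ i.succ * X i.succ 0 * (δ' 0 * δ 0) * (X 0 0)⁻¹ * (δ' 0 * δ 0) * X 0 j.succ *
        δ' j.succ := by
    simp only [mul_assoc]
  rw [e1, h0, mul_one, mul_one]
  simp only [mul_assoc, mul_sub, sub_mul]

end tri

section rel
variable {D E : Type*} [DivisionRing D] [AddCommGroup E] {O : Subring D} {I : AddSubgroup D}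
  {Ψ : D → E}

/-- **Conjugation by diagonal matrices.** -/
theorem Rel.Psim_diag_conj (h : Rel O I Ψ)
    (hc : ∀ x : D, x ≠ 0 → ∀ g : D, g - 1 ∈ I → x * g * x⁻¹ - 1 ∈ I → Ψ (x * g * x⁻¹) = Ψ g) :
    ∀ (m : ℕ) (δ δ' : Fin m → D) (X : Matrix (Fin m) (Fin m) D), (∀ i, δ i * δ' i = 1) →
      En I (X - 1) → En I (diagonal δ * X * diagonal δ' - 1) →
      Psim Ψ m (diagonal δ * X * diagonal δ') = Psim Ψ m X := by
  intro m
  induction m with
  | zero =>
    intro δ δ' X _ _ _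
    simp [Psim]
  | succ m ih =>
    intro δ δ' X hδ hX hX'
    have h1 : δ' 0 = (δ 0)⁻¹ := eq_inv_of_mul_eq_one_right (hδ 0)
    have h2 : δ 0 ≠ 0 := left_ne_zero_of_mul_eq_one (hδ 0)
    have h3 : (diagonal δ * X * diagonal δ') 0 0 = δ 0 * X 0 0 * (δ 0)⁻¹ := by
      rw [diag_conj_apply, h1]
    have h4 := en_pa hX'
    rw [h3] at h4
    have h5 := h.en_sch hX'
    rw [sch_diag hδ] at h5
    rw [Psim, Psim, h3, hc _ h2 _ (en_pa hX) h4, sch_diag hδ,
      ih _ _ _ (fun i => hδ i.succ) (h.en_sch hX) h5]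

/-- **Block triangular matrices.** -/
theorem Psim_blk {m : ℕ} {G : Matrix (Fin (m + 1)) (Fin (m + 1)) D}
    (hb : pb G = 0 ∨ pc G = 0) : Psim Ψ (m + 1) G = Ψ (G 0 0) + Psim Ψ m (pd G) := by
  rw [Psim, sch]
  rcases hb with hb | hb
  · rw [hb, Matrix.mul_zero, sub_zero]
  · rw [hb, Matrix.zero_mul, Matrix.zero_mul, sub_zero]

end rel

section det
variable {F : Type*} [Field F] {m : ℕ}

/-- The index type. -/
def ix (m : ℕ) : Unit ⊕ Fin m ≃ Fin (m + 1) where
  toFun := Sum.elim (fun _ => 0) Fin.succ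
  invFun := Fin.cases (Sum.inl ()) Sum.inr
  left_inv := by
    rintro (⟨⟩ | j)
    · rfl
    · rfl
  right_inv := by
    intro j
    refine Fin.cases rfl (fun i => rfl) j

omit [Field F] in
theorem submatrix_ix (A : Matrix (Fin (m + 1)) (Fin (m + 1)) F) :
    A.submatrix (ix m) (ix m) = fromBlocks (pa A) (pb A) (pc A) (pd A) := by
  ext i j
  rcases i with ⟨⟩ | i <;> rcases j with ⟨⟩ | j <;> rfl

/-- The determinant by the Schur complement. -/
theorem det_eq_sch (A : Matrix (Fin (m + 1)) (Fin (m + 1)) F) (hA : A 0 0 ≠ 0) :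
    A.det = A 0 0 * (sch A).det := by
  let _ : Invertible (pa A) :=
    ⟨sc (A 0 0)⁻¹, by rw [pa_eq, sc_inv_mul hA], by rw [pa_eq, sc_mul_inv hA]⟩
  have h1 : ⅟(pa A) = sc (A 0 0)⁻¹ := rfl
  rw [← Matrix.det_submatrix_equiv_self (ix m) A, submatrix_ix, Matrix.det_fromBlocks₁₁, h1, sch,
    Matrix.det_unique (pa A)]
  rfl

end det

section comm
variable {D E F : Type*} [DivisionRing D] [AddCommGroup E] {O : Subring D} {I : AddSubgroup D}
  {Ψ : D → E} [Field F] (φ : F →+* D)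

theorem sch_map {m : ℕ} (A : Matrix (Fin (m + 1)) (Fin (m + 1)) F) :
    (sch A).map φ = sch (A.map φ) := by
  ext i j
  rw [Matrix.map_apply, sch_apply, sch_apply, map_sub, map_mul, map_mul, map_inv₀]
  rfl

/-- **Matrices over a commutative subfield.** -/
theorem Rel.Psim_det (h : Rel O I Ψ) : ∀ (m : ℕ) (A : Matrix (Fin m) (Fin m) F),
    En I (A.map φ - 1) → φ A.det - 1 ∈ I ∧ Psim Ψ m (A.map φ) = Ψ (φ A.det) := by
  intro m
  induction m with
  | zero =>
    intro A _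
    rw [Matrix.det_isEmpty, _root_.map_one, sub_self, Psim, h.map_one]
    exact ⟨I.zero_mem, rfl⟩
  | succ m ih =>
    intro A hA
    have h0 : φ (A 0 0) - 1 ∈ I := en_pa hA
    have hne : A 0 0 ≠ 0 := fun h1 => h.ne_zero h0 (by rw [h1, _root_.map_zero])
    have h2 := h.en_sch hA
    rw [← sch_map] at h2
    obtain ⟨h3, h4⟩ := ih (sch A) h2
    rw [det_eq_sch A hne, _root_.map_mul]
    refine ⟨h.mul_mem h0 h3, ?_⟩
    rw [Psim, ← sch_map, h4, h.map_mul h0 h3]
    rfl

end comm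

end Vale.Agent.P011.H226.Die
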