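import Vale.Agent.P011.H226.Die2
import Vale.Agent.P011.H733.Cartan

/-!
P011, general odd `n`, helper226: **the relative Dieudonne determinant near one**, third part:
balls for a finite family of ultrametric absolute values, uniform invariance under conjugation by
all invertible matrices (helper733's Cartan decomposition), arbitrary index types.
-/

namespace Vale.Agent.P011.H226.Die

open Matrix Vale.Agent.P011.H733

section nu
variable {D E ι : Type*} [DivisionRing D] [AddCommGroup E] {ν : ι → AbsoluteValue D ℝ}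

/-- The elements of size less than `ε`. -/
def BI (h : Ultra ν) {ε : ℝ} (hε : 0 < ε) : AddSubgroup D where
  carrier := {x | ∀ i, ν i x < ε}
  add_mem' := fun {x y} hx hy i => (h i x y).trans_lt (max_lt (hx i) (hy i))
  zero_mem' := fun i => by rw [map_zero]; exact hε
  neg_mem' := fun {x} hx i => by rw [AbsoluteValue.map_neg]; exact hx i

theorem mem_BI {h : Ultra ν} {ε : ℝ} {hε : 0 < ε} {x : D} :
    x ∈ BI h hε ↔ ∀ i, ν i x < ε := Iff.rfl

theorem nu_eq_one (h : Ultra ν) {i : ι} {x : D} (hx : ν i x < 1) : ν i (1 + x) = 1 := by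
  rw [ult_eq h (by rw [map_one]; exact hx), map_one]

/-- The hypotheses on `Ψ`: multiplicative on the ball, invariant under conjugation. -/
structure Nu (ν : ι → AbsoluteValue D ℝ) (ε : ℝ) (Ψ : D → E) : Prop where
  mul : ∀ x y : D, (∀ i, ν i (x - 1) < ε) → (∀ i, ν i (y - 1) < ε) → Ψ (x * y) = Ψ x + Ψ y
  conj : ∀ x g : D, x ≠ 0 → (∀ i, ν i (g - 1) < ε) → Ψ (x * g * x⁻¹) = Ψ g

/-- **Balls.** -/
theorem rel_of_nu [Nonempty ι] (h : Ultra ν) {ε : ℝ} (hε : 0 < ε) (hε1 : ε ≤ 1)
    {Ψ : D → E} (hΨ : Nu ν ε Ψ) : Rel (Oint h) (BI h hε) Ψ where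
  le := fun x hx i => ((hx i).trans_le hε1).le
  left := fun x hx y hy i => by
    rw [map_mul]
    calc ν i x * ν i y ≤ 1 * ν i y := mul_le_mul_of_nonneg_right (hx i) (AbsoluteValue.nonneg _ _)
      _ < ε := by rw [one_mul]; exact hy i
  right := fun y hy x hx i => by
    rw [map_mul]
    calc ν i y * ν i x ≤ ν i y * 1 := mul_le_mul_of_nonneg_left (hx i) (AbsoluteValue.nonneg _ _)
      _ < ε := by rw [mul_one]; exact hy i
  ne := fun x hx h0 => by
    obtain ⟨i⟩ := ‹Nonempty ι›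
    have h1 := nu_eq_one h ((hx i).trans_le hε1)
    rw [h0, map_zero] at h1
    exact zero_ne_one h1
  inv := fun x hx i => by
    have h1 := nu_eq_one h ((hx i).trans_le hε1)
    have h0 : 1 + x ≠ 0 := fun h2 => by
      rw [h2, map_zero] at h1
      exact zero_ne_one h1
    have h3 : (1 + x)⁻¹ - 1 = -(x * (1 + x)⁻¹) := by
      have h4 : (1 + x) * (1 + x)⁻¹ = 1 := mul_inv_cancel₀ h0
      rw [add_mul, one_mul] at h4
      calc (1 + x)⁻¹ - 1 = (1 + x)⁻¹ - ((1 + x)⁻¹ + x * (1 + x)⁻¹) := by rw [h4]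
        _ = -(x * (1 + x)⁻¹) := by rw [sub_add_cancel_left]
    rw [h3, AbsoluteValue.map_neg, map_mul, map_inv₀, h1, inv_one, mul_one]
    exact hx i
  mul := fun x hx y hy => hΨ.mul _ _ (fun i => by rw [add_sub_cancel_left]; exact hx i)
    (fun i => by rw [add_sub_cancel_left]; exact hy i)
  swap := fun x hx y hy => by
    by_cases hx0 : x = 0
    · rw [hx0, zero_mul, mul_zero]
    · have h1 : 1 + x * y = x * (1 + y * x) * x⁻¹ := by
        rw [mul_add, mul_one, add_mul, mul_inv_cancel₀ hx0]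
        simp only [mul_assoc]
        rw [mul_inv_cancel₀ hx0, mul_one]
      rw [h1]
      refine hΨ.conj _ _ hx0 fun i => ?_
      rw [add_sub_cancel_left, map_mul]
      calc ν i y * ν i x ≤ 1 * ν i x := mul_le_mul_of_nonneg_right (hy i)
            (AbsoluteValue.nonneg _ _)
        _ < ε := by rw [one_mul]; exact hx i

/-- **Uniform invariance under conjugation.** -/
theorem Psim_conj [Nonempty ι] (h : Ultra ν) (ha : Approx ν) {ε : ℝ} (hε : 0 < ε) (hε1 : ε ≤ 1)
    {Ψ : D → E} (hΨ : Nu ν ε Ψ) {m : ℕ} {P Pi G : Matrix (Fin m) (Fin m) D} (h1 : P * Pi = 1)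
    (h2 : Pi * P = 1) (hG : ∀ p q i, ν i ((G - 1) p q) < ε)
    (hG' : ∀ p q i, ν i ((P * G * Pi - 1) p q) < ε) :
    Psim Ψ m (P * G * Pi) = Psim Ψ m G := by
  have hr := rel_of_nu h hε hε1 hΨ
  refine unif h ha {X | En (BI h hε) (X - 1)} (Psim Ψ m) ?_ ?_ h1 h2 hG hG'
  · intro i j c hij hc X hX
    have e1 : (1 + Matrix.single i j c) * (1 + Matrix.single i j (-c)) =
        (1 : Matrix (Fin m) (Fin m) D) := es_inv hij
    have e2 : (1 + Matrix.single i j (-c)) * (1 + Matrix.single i j c) =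
        (1 : Matrix (Fin m) (Fin m) D) := by
      have := es_inv (c := -c) hij
      rwa [neg_neg] at this
    have o1 : ∀ c : D, c ∈ Oint h →
        En (Oint h).toAddSubgroup (1 + Matrix.single i j c : Matrix (Fin m) (Fin m) D) := by
      intro c hc
      refine enO_one.add fun p q => ?_
      rw [Matrix.single_apply]
      split_ifs
      · exact hc
      · exact (Oint h).zero_mem
    have hc' : -c ∈ Oint h := (Oint h).neg_mem hc
    refine ⟨?_, hr.Psim_conjO e1 e2 (o1 c hc) (o1 _ hc') hX⟩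
    change En (BI h hε) (_ - 1)
    have e3 : (1 + Matrix.single i j c) * X * (1 + Matrix.single i j (-c)) - 1 =
        (1 + Matrix.single i j c) * (X - 1) * (1 + Matrix.single i j (-c)) := by
      rw [mul_sub, mul_one, sub_mul, e1]
    rw [e3]
    exact hr.enIO (hr.enOI (o1 c hc) hX) (o1 _ hc')
  · intro δ hδ X hX hX'
    exact hr.Psim_diag_conj (fun x hx g hg _ => hΨ.conj x g hx hg) m δ _ X
      (fun i => mul_inv_cancel₀ (hδ i)) hX hX'

end nu

section gen
variable {D E : Type*} [DivisionRing D] [AddCommGroup E] {O : Subring D} {I : AddSubgroup D}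
  {Ψ : D → E} {n p : Type*} [Fintype n] [DecidableEq n] [Fintype p] [DecidableEq p]

/-- The pivot sum of a matrix with arbitrary indices. -/
noncomputable def PsiF (Ψ : D → E) (G : Matrix n n D) : E :=
  Psim Ψ (Fintype.card n) (G.submatrix (Fintype.equivFin n).symm (Fintype.equivFin n).symm)

omit [Fintype n] [DecidableEq n] [Fintype p] [DecidableEq p] in
theorem en_sub {l k : Type*} {X : Matrix n p D} (hX : En I X) (f : l → n) (g : k → p) :
    En I (X.submatrix f g) := fun i j => hX (f i) (g j)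

omit [Fintype n] in
theorem en_sub_one {l : Type*} [DecidableEq l] {G : Matrix n n D} (hG : En I (G - 1)) (e : l ≃ n) :
    En I (G.submatrix e e - 1) := by
  have h1 : G.submatrix e e - 1 = (G - 1).submatrix e e := by
    rw [Matrix.submatrix_sub, Pi.sub_apply, Pi.sub_apply, Matrix.submatrix_one_equiv]
  rw [h1]
  exact en_sub hG e e

/-- **Exchange**, `X` has entries in `I`, `Y` in `O`. -/
theorem Rel.PsiF_swap (h : Rel O I Ψ) (X : Matrix n p D) (Y : Matrix p n D) (hX : En I X)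
    (hY : En O.toAddSubgroup Y) : PsiF Ψ (1 + X * Y) = PsiF Ψ (1 + Y * X) := by
  have h1 : (1 + X * Y).submatrix (Fintype.equivFin n).symm (Fintype.equivFin n).symm =
      1 + X.submatrix (Fintype.equivFin n).symm (Fintype.equivFin p).symm *
        Y.submatrix (Fintype.equivFin p).symm (Fintype.equivFin n).symm := by
    rw [Matrix.submatrix_add, Pi.add_apply, Pi.add_apply, Matrix.submatrix_one_equiv,
      Matrix.submatrix_mul_equiv]
  have h2 : (1 + Y * X).submatrix (Fintype.equivFin p).symm (Fintype.equivFin p).symm =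
      1 + Y.submatrix (Fintype.equivFin p).symm (Fintype.equivFin n).symm *
        X.submatrix (Fintype.equivFin n).symm (Fintype.equivFin p).symm := by
    rw [Matrix.submatrix_add, Pi.add_apply, Pi.add_apply, Matrix.submatrix_one_equiv,
      Matrix.submatrix_mul_equiv]
  rw [PsiF, PsiF, h1, h2, h.Psim_swap _ _ _ (en_sub hX _ _) (en_sub hY _ _)]

theorem Rel.PsiF_mul (h : Rel O I Ψ) {G H : Matrix n n D} (hG : En I (G - 1))
    (hH : En I (H - 1)) : PsiF Ψ (G * H) = PsiF Ψ G + PsiF Ψ H := by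
  rw [PsiF, ← Matrix.submatrix_mul_equiv G H _ (Fintype.equivFin n).symm _,
    h.Psim_mul _ _ _ (en_sub_one hG _) (en_sub_one hH _)]
  rfl

theorem Rel.PsiF_one (h : Rel O I Ψ) : PsiF Ψ (1 : Matrix n n D) = 0 := by
  rw [PsiF, Matrix.submatrix_one_equiv, h.Psim_one]

theorem Rel.PsiF_conjO (h : Rel O I Ψ) {P Pi G : Matrix n n D} (h1 : P * Pi = 1)
    (h2 : Pi * P = 1) (hP : En O.toAddSubgroup P) (hPi : En O.toAddSubgroup Pi)
    (hG : En I (G - 1)) : PsiF Ψ (P * G * Pi) = PsiF Ψ G := by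
  have h3 : P * G * Pi = 1 + (P * (G - 1)) * Pi := by
    rw [Matrix.mul_sub, Matrix.sub_mul, Matrix.mul_one, h1]
    abel
  rw [h3, h.PsiF_swap _ _ (h.enOI hP hG) hPi, ← Matrix.mul_assoc, h2, Matrix.one_mul,
    add_sub_cancel]

/-- Renaming of the indices. -/
theorem Rel.PsiF_reindex (h : Rel O I Ψ) (e : p ≃ n) {G : Matrix n n D} (hG : En I (G - 1)) :
    PsiF Ψ (G.submatrix e e) = PsiF Ψ G := by
  have h1 : G.submatrix e e = 1 + ((G - 1).submatrix e id) * (1 : Matrix n n D).submatrix id e := by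
    ext i j
    rw [Matrix.add_apply, Matrix.mul_apply]
    simp [Matrix.one_apply]
  rw [h1, h.PsiF_swap _ _ (en_sub hG _ _) (en_sub enO_one _ _)]
  congr 1
  ext i j
  rw [Matrix.add_apply, Matrix.mul_apply]
  simp only [Matrix.submatrix_apply, id_eq, Matrix.one_apply, Matrix.sub_apply]
  rw [Fintype.sum_equiv e _ (fun k => (if i = k then (1 : D) else 0) * (G k j -
    if k = j then 1 else 0)) fun k => rfl]
  simp

/-- Fin indices. -/
theorem Rel.PsiF_fin (h : Rel O I Ψ) {m : ℕ} {G : Matrix (Fin m) (Fin m) D} (hG : En I (G - 1)) :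
    PsiF Ψ G = Psim Ψ m G := by
  obtain ⟨k, hk⟩ : ∃ k, k = Fintype.card (Fin m) := ⟨_, rfl⟩
  have key : ∀ k, k = m → ∀ e : Fin k ≃ Fin m, Psim Ψ k (G.submatrix e e) = Psim Ψ m G := by
    rintro k rfl e
    have h1 : G.submatrix e e = (1 : Matrix (Fin k) (Fin k) D).submatrix e id * G *
        (1 : Matrix (Fin k) (Fin k) D).submatrix id e := by
      ext i j
      rw [Matrix.mul_apply]
      simp [Matrix.mul_apply, Matrix.one_apply]
    rw [h1]
    refine h.Psim_conjO ?_ ?_ (en_sub enO_one _ _) (en_sub enO_one _ _) hG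
    · ext i j
      simp [Matrix.mul_apply, Matrix.one_apply]
    · ext i j
      rw [Matrix.mul_apply]
      simp only [Matrix.submatrix_apply, id_eq, Matrix.one_apply]
      rw [Fintype.sum_equiv e _ (fun k => (if i = k then (1 : D) else 0) *
        if k = j then 1 else 0) fun k => rfl]
      simp
  exact key _ (Fintype.card_fin m) _

/-- **Block triangular matrices.** -/
theorem Rel.PsiF_blocks (h : Rel O I Ψ) {A : Matrix n n D} {C : Matrix n p D} {B : Matrix p p D}
    (hA : En I (A - 1)) (hC : En I C) (hB : En I (B - 1)) :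
    PsiF Ψ (fromBlocks A C 0 B) = PsiF Ψ A + PsiF Ψ B := by
  obtain ⟨X1, hX1⟩ : ∃ X : Matrix (n ⊕ p) n D, X = fromRows 1 0 := ⟨_, rfl⟩
  obtain ⟨Y1, hY1⟩ : ∃ Y : Matrix n (n ⊕ p) D, Y = fromCols (A - 1) C := ⟨_, rfl⟩
  obtain ⟨X2, hX2⟩ : ∃ X : Matrix (n ⊕ p) p D, X = fromRows 0 (B - 1) := ⟨_, rfl⟩
  obtain ⟨Y2, hY2⟩ : ∃ Y : Matrix p (n ⊕ p) D, Y = fromCols 0 1 := ⟨_, rfl⟩
  have e1 : (fromBlocks A C 0 1 : Matrix (n ⊕ p) (n ⊕ p) D) = 1 + X1 * Y1 := by
    rw [← Matrix.fromBlocks_one, hX1, hY1, Matrix.fromRows_mul_fromCols]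
    ext i j
    rcases i with i | i <;> rcases j with j | j <;> simp [Matrix.one_apply]
  have e2 : A = 1 + Y1 * X1 := by
    rw [hX1, hY1, Matrix.fromCols_mul_fromRows, Matrix.mul_one, Matrix.mul_zero, add_zero]
    abel
  have e3 : (fromBlocks 1 0 0 B : Matrix (n ⊕ p) (n ⊕ p) D) = 1 + X2 * Y2 := by
    rw [← Matrix.fromBlocks_one, hX2, hY2, Matrix.fromRows_mul_fromCols]
    ext i j
    rcases i with i | i <;> rcases j with j | j <;> simp [Matrix.one_apply]
  have e4 : B = 1 + Y2 * X2 := by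
    rw [hX2, hY2, Matrix.fromCols_mul_fromRows, Matrix.one_mul, Matrix.zero_mul, zero_add]
    abel
  have hAC : En I Y1 := by
    rw [hY1]
    rintro i (j | j)
    · exact hA i j
    · exact hC i j
  have h10 : En O.toAddSubgroup X1 := by
    rw [hX1]
    rintro (i | i) j
    · exact enO_one i j
    · exact O.zero_mem
  have h0B : En I X2 := by
    rw [hX2]
    rintro (i | i) j
    · exact I.zero_mem
    · exact hB i j
  have h01 : En O.toAddSubgroup Y2 := by
    rw [hY2]
    rintro i (j | j)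
    · exact O.zero_mem
    · exact enO_one i j
  have f1 : PsiF Ψ (fromBlocks A C 0 1 : Matrix (n ⊕ p) (n ⊕ p) D) = PsiF Ψ A := by
    rw [e1]
    conv_rhs => rw [e2]
    exact (h.PsiF_swap _ _ hAC h10).symm
  have f2 : PsiF Ψ (fromBlocks 1 0 0 B : Matrix (n ⊕ p) (n ⊕ p) D) = PsiF Ψ B := by
    rw [e3]
    conv_rhs => rw [e4]
    exact h.PsiF_swap _ _ h0B h01
  have g1 : En I ((fromBlocks A C 0 1 : Matrix (n ⊕ p) (n ⊕ p) D) - 1) := by
    rw [e1, add_sub_cancel_left]
    exact h.enOI h10 hAC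
  have g2 : En I ((fromBlocks 1 0 0 B : Matrix (n ⊕ p) (n ⊕ p) D) - 1) := by
    rw [e3, add_sub_cancel_left]
    exact h.enIO h0B h01
  have e5 : (fromBlocks A C 0 B : Matrix (n ⊕ p) (n ⊕ p) D) =
      fromBlocks 1 0 0 B * fromBlocks A C 0 1 := by
    rw [Matrix.fromBlocks_multiply]
    simp
  rw [e5, h.PsiF_mul g2 g1, f1, f2, add_comm]

/-- **Matrices over a commutative subfield.** -/
theorem Rel.PsiF_det (h : Rel O I Ψ) {F : Type*} [Field F] (φ : F →+* D) (A : Matrix n n F)
    (hA : En I (A.map φ - 1)) : φ A.det - 1 ∈ I ∧ PsiF Ψ (A.map φ) = Ψ (φ A.det) := by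
  have h1 := h.Psim_det φ (Fintype.card n)
    (A.submatrix (Fintype.equivFin n).symm (Fintype.equivFin n).symm)
    (by
      rw [← Matrix.submatrix_map]
      exact en_sub_one hA _)
  rw [Matrix.det_submatrix_equiv_self] at h1
  refine ⟨h1.1, ?_⟩
  rw [← h1.2, PsiF, Matrix.submatrix_map]

/-- **Norms.** -/
theorem Rel.PsiF_norm (h : Rel O I Ψ) {F M : Type*} [Field F] [Field M] [Algebra F M]
    (φ : F →+* D) (b : Module.Basis n F M) (y : M)
    (hy : En I ((Algebra.leftMulMatrix b y).map φ - 1)) :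
    φ (Algebra.norm F y) - 1 ∈ I ∧
      PsiF Ψ ((Algebra.leftMulMatrix b y).map φ) = Ψ (φ (Algebra.norm F y)) := by
  rw [Algebra.norm_eq_matrix_det b]
  exact h.PsiF_det φ _ hy

/-- **Uniform invariance under conjugation**, arbitrary indices. -/
theorem PsiF_conj {ι : Type*} {ν : ι → AbsoluteValue D ℝ} [Nonempty ι] (h : Ultra ν)
    (ha : Approx ν) {ε : ℝ} (hε : 0 < ε) (hε1 : ε ≤ 1) (hΨ : Nu ν ε Ψ)
    {P : Matrix n p D} {Pi : Matrix p n D} {G : Matrix p p D} (h1 : P * Pi = 1)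
    (h2 : Pi * P = 1) (hG : En (BI h hε) (G - 1)) (hG' : En (BI h hε) (P * G * Pi - 1)) :
    PsiF Ψ (P * G * Pi) = PsiF Ψ G := by
  have hr := rel_of_nu h hε hε1 hΨ
  by_cases hc : Fintype.card n = Fintype.card p
  · obtain ⟨e⟩ : Nonempty (n ≃ p) := ⟨Fintype.equivOfCardEq hc⟩
    set f := (Fintype.equivFin p).symm with hf
    have k1 : P.submatrix (e.symm ∘ f) f * Pi.submatrix f (e.symm ∘ f) = 1 := by
      rw [Matrix.submatrix_mul_equiv, h1]
      exact Matrix.submatrix_one_equiv (f.trans e.symm)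
    have k2 : Pi.submatrix f (e.symm ∘ f) * P.submatrix (e.symm ∘ f) f = 1 := by
      have := Matrix.submatrix_mul_equiv Pi P f (f.trans e.symm) f
      rw [h2, Matrix.submatrix_one_equiv] at this
      exact this
    have k3 : (P * G * Pi).submatrix (e.symm ∘ f) (e.symm ∘ f) =
        P.submatrix (e.symm ∘ f) f * G.submatrix f f * Pi.submatrix f (e.symm ∘ f) := by
      rw [Matrix.submatrix_mul_equiv, Matrix.submatrix_mul_equiv]
    have k4 : En (BI h hε) ((P * G * Pi).submatrix (e.symm ∘ f) (e.symm ∘ f) - 1) :=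
      en_sub_one hG' (f.trans e.symm)
    have k5 : Psim Ψ _ ((P * G * Pi).submatrix (e.symm ∘ f) (e.symm ∘ f)) =
        Psim Ψ _ (G.submatrix f f) := by
      rw [k3]
      rw [k3] at k4
      exact Psim_conj h ha hε hε1 hΨ k1 k2 (en_sub_one hG f) k4
    have k6 : PsiF Ψ ((P * G * Pi).submatrix (f.trans e.symm) (f.trans e.symm)) =
        PsiF Ψ (P * G * Pi) := hr.PsiF_reindex (f.trans e.symm) hG'
    rw [← k6, hr.PsiF_fin (en_sub_one hG' _)]
    exact k5
  · exfalso
    exact hc (Matrix.square_of_invertible P Pi h1 h2)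

end gen

end Vale.Agent.P011.H226.Die
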