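import Vale.Agent.P011.H226.Die3

/-!
P011, general odd `n`, helper226: **the relative Dieudonne determinant near one**, fourth part:
for a homomorphism `Ψ` on `1 + J`, `J` a two-sided ideal of `O`, the exchange property
`Ψ (1 + a b) = Ψ (1 + b a)`, `a, b ∈ J`, is automatic; hence `Rel` on a smaller ideal and
invariance under conjugation by every invertible matrix near one, with no hypothesis of
conjugation invariance.
-/

namespace Vale.Agent.P011.H226.Die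

open Matrix

section relG
variable {D E : Type*} [DivisionRing D] [AddCommGroup E]

/-- `J` is a two-sided ideal of `O`, `1 + J` is a group, `Ψ` is multiplicative on `1 + J`. -/
structure RelG (O : Subring D) (J : AddSubgroup D) (Ψ : D → E) : Prop where
  le : ∀ x ∈ J, x ∈ O
  left : ∀ x ∈ O, ∀ y ∈ J, x * y ∈ J
  right : ∀ y ∈ J, ∀ x ∈ O, y * x ∈ J
  ne : ∀ x ∈ J, 1 + x ≠ 0
  inv : ∀ x ∈ J, (1 + x)⁻¹ ∈ O
  mul : ∀ x ∈ J, ∀ y ∈ J, Ψ ((1 + x) * (1 + y)) = Ψ (1 + x) + Ψ (1 + y)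

variable {O : Subring D} {J : AddSubgroup D} {Ψ : D → E}

theorem RelG.ne_zero (h : RelG O J Ψ) {g : D} (hg : g - 1 ∈ J) : g ≠ 0 := by
  have := h.ne _ hg
  rwa [add_sub_cancel] at this

theorem RelG.mem_of_sub (h : RelG O J Ψ) {g : D} (hg : g - 1 ∈ J) : g ∈ O := by
  have := O.add_mem (h.le _ hg) O.one_mem
  rwa [sub_add_cancel] at this

theorem inv_sub_one {x : D} (h0 : 1 + x ≠ 0) : (1 + x)⁻¹ - 1 = -(x * (1 + x)⁻¹) := by
  have h4 : (1 + x) * (1 + x)⁻¹ = 1 := mul_inv_cancel₀ h0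
  rw [add_mul, one_mul] at h4
  calc (1 + x)⁻¹ - 1 = (1 + x)⁻¹ - ((1 + x)⁻¹ + x * (1 + x)⁻¹) := by rw [h4]
    _ = -(x * (1 + x)⁻¹) := by rw [sub_add_cancel_left]

theorem RelG.inv_mem (h : RelG O J Ψ) {g : D} (hg : g - 1 ∈ J) : g⁻¹ - 1 ∈ J := by
  have h1 := inv_sub_one (h.ne _ hg)
  rw [add_sub_cancel] at h1
  rw [h1]
  have h2 := h.inv _ hg
  rw [add_sub_cancel] at h2
  exact J.neg_mem (h.right _ hg _ h2)

theorem RelG.mul_mem (h : RelG O J Ψ) {g g' : D} (hg : g - 1 ∈ J) (hg' : g' - 1 ∈ J) :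
    g * g' - 1 ∈ J := by
  have h1 : g * g' - 1 = (g - 1) * g' + (g' - 1) := by noncomm_ring
  rw [h1]
  exact J.add_mem (h.right _ hg _ (h.mem_of_sub hg')) hg'

theorem RelG.map_mul (h : RelG O J Ψ) {g g' : D} (hg : g - 1 ∈ J) (hg' : g' - 1 ∈ J) :
    Ψ (g * g') = Ψ g + Ψ g' := by
  have := h.mul _ hg _ hg'
  rwa [add_sub_cancel, add_sub_cancel] at this

theorem RelG.map_one (h : RelG O J Ψ) : Ψ 1 = 0 := by
  have h0 : (1 : D) - 1 ∈ J := by rw [sub_self]; exact J.zero_mem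
  have := h.map_mul h0 h0
  rw [mul_one] at this
  exact left_eq_add.1 this

/-- Conjugation by elements of `1 + J`. -/
theorem RelG.map_conj (h : RelG O J Ψ) {w g : D} (hw : w - 1 ∈ J) (hg : g - 1 ∈ J) :
    Ψ (w⁻¹ * g * w) = Ψ g := by
  have h1 := h.inv_mem hw
  rw [h.map_mul (h.mul_mem h1 hg) hw, h.map_mul h1 hg]
  have h2 := h.map_mul h1 hw
  rw [inv_mul_cancel₀ (h.ne_zero hw), h.map_one] at h2
  have h3 : Ψ w⁻¹ + Ψ g + Ψ w = (Ψ w⁻¹ + Ψ w) + Ψ g := by abel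
  rw [h3, ← h2, zero_add]

/-- **The exchange property is automatic.** -/
theorem RelG.swap (h : RelG O J Ψ) {a b : D} (ha : a ∈ J) (hb : b ∈ J) :
    Ψ (1 + a * b) = Ψ (1 + b * a) := by
  obtain ⟨w, hw⟩ : ∃ w, w = 1 + b := ⟨_, rfl⟩
  have hwJ : w - 1 ∈ J := by rw [hw, add_sub_cancel_left]; exact hb
  have hw0 := h.ne_zero hwJ
  have hwO := h.mem_of_sub hwJ
  have hb' : b = w - 1 := by rw [hw, add_sub_cancel_left]
  obtain ⟨v, hv⟩ : ∃ v, v = 1 + w * a := ⟨_, rfl⟩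
  have hvJ : v - 1 ∈ J := by rw [hv, add_sub_cancel_left]; exact h.left _ hwO _ ha
  have hv0 := h.ne_zero hvJ
  have hviJ := h.inv_mem hvJ
  have hviO := h.mem_of_sub hviJ
  obtain ⟨u, hu⟩ : ∃ u, u = 1 + a * w := ⟨_, rfl⟩
  have huJ : u - 1 ∈ J := by rw [hu, add_sub_cancel_left]; exact h.right _ ha _ hwO
  -- `u = w⁻¹ v w`
  have h1 : u = w⁻¹ * v * w := by
    rw [hu, hv, mul_add, mul_one, add_mul, ← mul_assoc w⁻¹, inv_mul_cancel₀ hw0, one_mul]
  have h2 : Ψ u = Ψ v := by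
    rw [h1]
    exact h.map_conj hwJ hvJ
  -- the second factors
  have e1 : a * v = u * a := by
    rw [hu, hv, mul_add, mul_one, add_mul, one_mul, mul_assoc]
  have h3 : 1 + a * b = u * (1 - a * v⁻¹) := by
    rw [mul_sub, mul_one, ← mul_assoc, ← e1, mul_assoc, mul_inv_cancel₀ hv0, mul_one, hu, hb',
      mul_sub, mul_one]
    abel
  have h4 : 1 + b * a = v * (1 - v⁻¹ * a) := by
    rw [mul_sub, mul_one, ← mul_assoc, mul_inv_cancel₀ hv0, one_mul, hv, hb', sub_mul, one_mul]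
    abel
  have hs1 : (1 - a * v⁻¹) - 1 ∈ J := by
    rw [sub_sub_cancel_left]
    exact J.neg_mem (h.right _ ha _ hviO)
  have hs2 : (1 - v⁻¹ * a) - 1 ∈ J := by
    rw [sub_sub_cancel_left]
    exact J.neg_mem (h.left _ hviO _ ha)
  have h5 : 1 - v⁻¹ * a = v⁻¹ * (1 - a * v⁻¹) * v := by
    rw [mul_sub, mul_one, sub_mul, inv_mul_cancel₀ hv0]
    simp only [mul_assoc]
    rw [inv_mul_cancel₀ hv0, mul_one]
  rw [h3, h4, h.map_mul huJ hs1, h.map_mul hvJ hs2, h2, h5, h.map_conj hvJ hs1]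

end relG

section fr
variable {K D E : Type*} [Field K] [DivisionRing D] [Algebra K D] [AddCommGroup E]

/-- The frame: `c` is a small central element. -/
structure Fr (O : Subring D) (c : K) : Prop where
  ne : c ≠ 0
  mem : algebraMap K D c ∈ O
  den : ∀ x : D, ∃ N : ℕ, c ^ N • x ∈ O
  unit : ∀ x ∈ O, 1 + c • x ≠ 0 ∧ (1 + c • x)⁻¹ ∈ O

/-- `c ^ n O` -/
def pw (O : Subring D) (c : K) (n : ℕ) : AddSubgroup D where
  carrier := {x | ∃ y ∈ O, c ^ n • y = x}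
  add_mem' := by
    rintro _ _ ⟨y, hy, rfl⟩ ⟨z, hz, rfl⟩
    exact ⟨y + z, O.add_mem hy hz, smul_add _ _ _⟩
  zero_mem' := ⟨0, O.zero_mem, smul_zero _⟩
  neg_mem' := by
    rintro _ ⟨y, hy, rfl⟩
    exact ⟨-y, O.neg_mem hy, smul_neg _ _⟩

variable {O : Subring D} {c : K} {Ψ : D → E}

theorem Fr.smul_mem (h : Fr O c) (n : ℕ) {x : D} (hx : x ∈ O) : c ^ n • x ∈ O := by
  rw [Algebra.smul_def, map_pow]
  exact O.mul_mem (O.pow_mem h.mem n) hx

theorem Fr.pw_le (h : Fr O c) {m n : ℕ} (hmn : m ≤ n) : pw O c n ≤ pw O c m := by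
  rintro _ ⟨y, hy, rfl⟩
  refine ⟨c ^ (n - m) • y, h.smul_mem _ hy, ?_⟩
  rw [smul_smul, ← pow_add, Nat.add_sub_cancel' hmn]

theorem Fr.le (h : Fr O c) (n : ℕ) {x : D} (hx : x ∈ pw O c n) : x ∈ O := by
  obtain ⟨y, hy, rfl⟩ := hx
  exact h.smul_mem n hy

theorem pw_left {n : ℕ} {x y : D} (hx : x ∈ O) (hy : y ∈ pw O c n) : x * y ∈ pw O c n := by
  obtain ⟨y, hy, rfl⟩ := hy
  exact ⟨x * y, O.mul_mem hx hy, (mul_smul_comm _ _ _).symm⟩

theorem pw_right {n : ℕ} {x y : D} (hy : y ∈ pw O c n) (hx : x ∈ O) : y * x ∈ pw O c n := by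
  obtain ⟨y, hy, rfl⟩ := hy
  exact ⟨y * x, O.mul_mem hy hx, (smul_mul_assoc _ _ _).symm⟩

theorem Fr.unit' (h : Fr O c) {n : ℕ} (hn : 1 ≤ n) {x : D} (hx : x ∈ pw O c n) :
    1 + x ≠ 0 ∧ (1 + x)⁻¹ ∈ O := by
  obtain ⟨y, hy, rfl⟩ := h.pw_le hn hx
  rw [pow_one]
  exact h.unit y hy

/-- `Ψ` is a homomorphism on `1 + c ^ s O`. -/
theorem Fr.relG (h : Fr O c) {s : ℕ} (hs : 1 ≤ s)
    (hm : ∀ x y : D, x - 1 ∈ pw O c s → y - 1 ∈ pw O c s → Ψ (x * y) = Ψ x + Ψ y) :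
    RelG O (pw O c s) Ψ where
  le := fun _ hx => h.le s hx
  left := fun _ hx _ hy => pw_left hx hy
  right := fun _ hy _ hx => pw_right hy hx
  ne := fun _ hx => (h.unit' hs hx).1
  inv := fun _ hx => (h.unit' hs hx).2
  mul := fun x hx y hy => hm _ _ (by rwa [add_sub_cancel_left]) (by rwa [add_sub_cancel_left])

/-- **`Rel` for every homomorphism near one.** -/
theorem Fr.rel (h : Fr O c) {s n : ℕ} (hs : 1 ≤ s) (hn : 2 * s ≤ n)
    (hm : ∀ x y : D, x - 1 ∈ pw O c s → y - 1 ∈ pw O c s → Ψ (x * y) = Ψ x + Ψ y) :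
    Rel O (pw O c n) Ψ where
  le := fun _ hx => h.le n hx
  left := fun _ hx _ hy => pw_left hx hy
  right := fun _ hy _ hx => pw_right hy hx
  ne := fun _ hx => (h.unit' (by omega) hx).1
  inv := fun x hx => by
    have h1 := h.unit' (show 1 ≤ n by omega) hx
    rw [inv_sub_one h1.1]
    exact (pw O c n).neg_mem (pw_right hx h1.2)
  mul := fun x hx y hy => hm _ _
    (by rw [add_sub_cancel_left]; exact h.pw_le (by omega) hx)
    (by rw [add_sub_cancel_left]; exact h.pw_le (by omega) hy)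
  swap := fun x hx y hy => by
    obtain ⟨x', hx', rfl⟩ := h.pw_le hn hx
    have h1 : c ^ (2 * s) • x' * y = (c ^ s • x') * (c ^ s • y) := by
      rw [smul_mul_smul_comm, ← pow_add, two_mul, smul_mul_assoc]
    have h2 : y * c ^ (2 * s) • x' = (c ^ s • y) * (c ^ s • x') := by
      rw [smul_mul_smul_comm, ← pow_add, two_mul, mul_smul_comm]
    rw [h1, h2]
    exact (h.relG hs hm).swap ⟨x', hx', rfl⟩ ⟨y, hy, rfl⟩

/-- common denominators -/
theorem Fr.den_mat (h : Fr O c) {n p : Type*} [Finite n] [Finite p] (X : Matrix n p D) :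
    ∃ N : ℕ, En O.toAddSubgroup (c ^ N • X) := by
  choose N hN using fun ij : n × p => h.den (X ij.1 ij.2)
  obtain ⟨M, hM⟩ := (Set.finite_range N).bddAbove
  refine ⟨M, fun i j => ?_⟩
  have h1 : N (i, j) ≤ M := hM ⟨(i, j), rfl⟩
  have h2 : c ^ M • X i j = c ^ (M - N (i, j)) • (c ^ N (i, j) • X i j) := by
    rw [smul_smul, ← pow_add, Nat.sub_add_cancel h1]
  rw [Matrix.smul_apply, h2]
  exact h.smul_mem _ (hN (i, j))

/-- **Invariance under conjugation by every invertible matrix, near one**, with no hypothesis on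
`Ψ` except that it is a homomorphism on `1 + c ^ s O`. -/
theorem Fr.PsiF_conj (h : Fr O c) {s : ℕ} (hs : 1 ≤ s)
    (hm : ∀ x y : D, x - 1 ∈ pw O c s → y - 1 ∈ pw O c s → Ψ (x * y) = Ψ x + Ψ y)
    {n p : Type*} [Fintype n] [DecidableEq n] [Fintype p] [DecidableEq p] {P : Matrix n p D}
    {Pi : Matrix p n D} (h1 : P * Pi = 1) (h2 : Pi * P = 1) (r : ℕ) :
    ∃ N : ℕ, ∀ G : Matrix p p D, En (pw O c N) (G - 1) →
      En (pw O c r) (P * G * Pi - 1) ∧ PsiF Ψ (P * G * Pi) = PsiF Ψ G := by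
  obtain ⟨a, ha⟩ := h.den_mat P
  obtain ⟨b, hb⟩ := h.den_mat Pi
  refine ⟨a + b + (2 * s + r), fun G hG => ?_⟩
  choose Z hZ hZ' using hG
  have hGZ : G - 1 = c ^ (a + b + (2 * s + r)) • (Matrix.of Z : Matrix p p D) := by
    ext i j
    rw [← hZ' i j]
    rfl
  have hZO : En O.toAddSubgroup (Matrix.of Z : Matrix p p D) := fun i j => hZ i j
  have h3 : P * G * Pi = 1 + (P * (G - 1)) * Pi := by
    rw [Matrix.mul_sub, Matrix.sub_mul, Matrix.mul_one, h1]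
    abel
  obtain ⟨X, hX⟩ : ∃ X : Matrix n p D, X = c ^ (2 * s + r) • ((c ^ a • P) * Matrix.of Z) :=
    ⟨_, rfl⟩
  obtain ⟨Y, hY⟩ : ∃ Y : Matrix p n D, Y = c ^ b • Pi := ⟨_, rfl⟩
  have hXI : En (pw O c (2 * s + r)) X := by
    intro i j
    rw [hX]
    exact ⟨_, enOO ha hZO i j, rfl⟩
  have hYO : En O.toAddSubgroup Y := by rw [hY]; exact hb
  have hXY : X * Y = (P * (G - 1)) * Pi := by
    rw [hX, hY, hGZ]
    simp only [Matrix.smul_mul, Matrix.mul_smul, smul_smul, ← pow_add]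
    congr 2
    omega
  have hYX : Y * X = G - 1 := by
    have h5 : Y * X = c ^ (a + b + (2 * s + r)) • ((Pi * P) * Matrix.of Z) := by
      rw [hX, hY]
      simp only [Matrix.smul_mul, Matrix.mul_smul, smul_smul, ← pow_add, Matrix.mul_assoc]
      congr 2
      omega
    rw [h5, h2, Matrix.one_mul, ← hGZ]
  have hr := h.rel hs (show 2 * s ≤ 2 * s + r by omega) hm
  refine ⟨?_, ?_⟩
  · rw [h3, add_sub_cancel_left, ← hXY]
    intro i j
    exact h.pw_le (by omega) (hr.enIO hXI hYO i j)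
  · rw [h3, ← hXY, hr.PsiF_swap X Y hXI hYO, hYX, add_sub_cancel]

/-- **Every homomorphism near one is invariant under conjugation near one.** -/
theorem Fr.map_conj (h : Fr O c) {s : ℕ} (hs : 1 ≤ s)
    (hm : ∀ x y : D, x - 1 ∈ pw O c s → y - 1 ∈ pw O c s → Ψ (x * y) = Ψ x + Ψ y)
    {x : D} (hx : x ≠ 0) :
    ∃ N : ℕ, ∀ g : D, g - 1 ∈ pw O c N → Ψ (x * g * x⁻¹) = Ψ g := by
  have h1 : sc x * sc x⁻¹ = 1 := sc_mul_inv hx
  have h2 : sc x⁻¹ * sc x = 1 := sc_inv_mul hx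
  obtain ⟨N, hN⟩ := h.PsiF_conj hs hm h1 h2 (2 * s)
  have key : ∀ g : D, PsiF Ψ (sc g) = Ψ g := by
    intro g
    have h3 : ∀ k : ℕ, k = 0 + 1 → ∀ e : Fin k → Unit, Psim Ψ k ((sc g).submatrix e e) = Ψ g := by
      rintro k rfl e
      rw [Psim, Psim, add_zero]
      rfl
    exact h3 _ Fintype.card_unit _
  refine ⟨N, fun g hg => ?_⟩
  obtain ⟨-, h3⟩ := hN (sc g) (by rw [← sc_one, ← sc_sub]; exact en_sc hg)
  rwa [← sc_mul, ← sc_mul, key, key] at h3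

end fr

end Vale.Agent.P011.H226.Die
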